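import Vale.Agent.P050.H546.Spec2

/-!
Attaching `d` and `e`, given `(u, v)`: twice the conditional law of an inner vertex of a walk of
length 3, given the ends of the walk.
-/

set_option linter.unusedSectionVars false

namespace Vale.Agent.P050.H762

open Finset Vale.Agent.P050.H148 Vale.Agent.P050.Cart Vale.Agent.P050.M18 Vale.Agent.P050.H546

/-- equal laws have equal images -/
theorem mar_map {Ω Ω' α β : Type} [Fintype Ω] [Fintype Ω'] [Fintype α] [Fintype β]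
    {P : Ω → ℝ} {P' : Ω' → ℝ}
    {f : Ω → α} {f' : Ω' → α} (h : mar P f = mar P' f') (g : α → β) :
    mar P (fun ω => g (f ω)) = mar P' (fun ω => g (f' ω)) := by
  funext z
  rw [← mar_mar P f g z, ← mar_mar P' f' g z, h]

section walk

variable {U : Type} [Fintype U] {Q : U × U → ℝ}

/-- the edges of a walk in the support -/
theorem W3_ne {x : ((U × U) × U) × U} (h : W3 Q x ≠ 0) :
    Q x.1.1 ≠ 0 ∧ Q (x.1.1.2, x.1.2) ≠ 0 ∧ Q (x.1.2, x.2) ≠ 0 := by
  have h1 := att_nb_ne h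
  have h2 := att_nb_ne h1.1
  exact ⟨h2.1, h2.2, h1.2⟩

/-- the entropy of a pair whose law is `Q` -/
theorem ent_Q {Ω' : Type} [Fintype Ω'] (P' : Ω' → ℝ) (f : Ω' → U × U) (hf : mar P' f = Q) :
    Cart.ent P' f = hQ Q := by
  unfold hQ
  refine ent_law fun a => ?_
  rw [hf, mar_id]

/-- the entropy of the second vertex of a pair whose law is `Q` -/
theorem ent_Q_snd (hE : Edge Q) {Ω' : Type} [Fintype Ω'] (P' : Ω' → ℝ) (f : Ω' → U × U)
    (hf : mar P' f = Q) : Cart.ent P' (fun ω => (f ω).2) = aQ Q := by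
  rw [← hE.ent_snd, ← ent_mar P' f (fun e => e.2), hf]

end walk

theorem mid : MidStmt := by
  intro U Ω _ _ _ Q P R a b n hE h
  have hP := h.nn
  have hW := W3_nn hE
  have hm := h.luv
  -- the first attachment
  have n1 := xat_nonneg (c := fun ω => ((b ω).2, (a ω).2)) (c' := fun x => (x.1.1.1, x.2))
    (fun x : ((U × U) × U) × U => x.1.1.2) hP hW
  have t1 := xat_total (fun x : ((U × U) × U) × U => x.1.1.2) hP hm h.tot
  have m1 : mar (xat P (fun ω => ((b ω).2, (a ω).2)) (W3 Q) (fun x => (x.1.1.1, x.2))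
      (fun x => x.1.1.2)) (fun x => ((b x.1).2, (a x.1).2)) =
      mar (W3 Q) (fun x => (x.1.1.1, x.2)) := by
    rw [← hm]
    exact xat_fst _ hP hm (fun ω => ((b ω).2, (a ω).2))
  have l1 : mar (xat P (fun ω => ((b ω).2, (a ω).2)) (W3 Q) (fun x => (x.1.1.1, x.2))
      (fun x => x.1.1.2)) (fun x => (((b x.1).2, (a x.1).2), x.2)) =
      mar (W3 Q) (fun x => ((x.1.1.1, x.2), x.1.1.2)) :=
    xat_law (fun x : ((U × U) × U) × U => x.1.1.2) hW hm
  have s1 : ∀ x : Ω × U, xat P (fun ω => ((b ω).2, (a ω).2)) (W3 Q) (fun x => (x.1.1.1, x.2))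
      (fun x => x.1.1.2) x ≠ 0 → ∃ w, W3 Q w ≠ 0 ∧ (w.1.1.1, w.2) = ((b x.1).2, (a x.1).2) ∧
      w.1.1.2 = x.2 := fun x hx =>
    (xat_ne_zero (fun x : ((U × U) × U) × U => x.1.1.2) hP hW hx).2
  have f1 : ∀ {α : Type} (g : Ω → α), mar (xat P (fun ω => ((b ω).2, (a ω).2)) (W3 Q)
      (fun x => (x.1.1.1, x.2)) (fun x => x.1.1.2)) (fun x => g x.1) = mar P g := fun g =>
    xat_fst (fun x : ((U × U) × U) × U => x.1.1.2) hP hm g
  have g1 : ∀ {α : Type} [Fintype α] (g : Ω → α) (k : α → U × U),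
      (∀ ω, ((b ω).2, (a ω).2) = k (g ω)) → Cart.ent (xat P (fun ω => ((b ω).2, (a ω).2)) (W3 Q)
      (fun x => (x.1.1.1, x.2)) (fun x => x.1.1.2)) (fun x => (g x.1, x.2)) = Cart.ent P g +
      (Cart.ent (W3 Q) (fun x => ((x.1.1.1, x.2), x.1.1.2)) -
        Cart.ent (W3 Q) (fun x => (x.1.1.1, x.2))) := fun g k hk =>
    xat_ent (fun x : ((U × U) × U) × U => x.1.1.2) hP hW hm g k hk
  generalize xat P (fun ω => ((b ω).2, (a ω).2)) (W3 Q) (fun x => (x.1.1.1, x.2))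
      (fun x => x.1.1.2) = P1 at n1 t1 m1 l1 s1 f1 g1 ⊢
  -- the second attachment
  have n2 := xat_nonneg (c := fun x => ((b x.1).2, (a x.1).2)) (c' := fun x => (x.1.1.1, x.2))
    (fun x : ((U × U) × U) × U => x.1.2) n1 hW
  have t2 := xat_total (fun x : ((U × U) × U) × U => x.1.2) n1 m1 t1
  have l2 : mar (xat P1 (fun x => ((b x.1).2, (a x.1).2)) (W3 Q) (fun x => (x.1.1.1, x.2))
      (fun x => x.1.2)) (fun x => (((b x.1.1).2, (a x.1.1).2), x.2)) =
      mar (W3 Q) (fun x => ((x.1.1.1, x.2), x.1.2)) :=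
    xat_law (fun x : ((U × U) × U) × U => x.1.2) hW m1
  have s2 : ∀ x : (Ω × U) × U, xat P1 (fun x => ((b x.1).2, (a x.1).2)) (W3 Q)
      (fun x => (x.1.1.1, x.2)) (fun x => x.1.2) x ≠ 0 → P1 x.1 ≠ 0 ∧ ∃ w, W3 Q w ≠ 0 ∧
      (w.1.1.1, w.2) = ((b x.1.1).2, (a x.1.1).2) ∧ w.1.2 = x.2 := fun x hx =>
    xat_ne_zero (fun x : ((U × U) × U) × U => x.1.2) n1 hW hx
  have f2 : ∀ {α : Type} (g : Ω × U → α), mar (xat P1 (fun x => ((b x.1).2, (a x.1).2)) (W3 Q)
      (fun x => (x.1.1.1, x.2)) (fun x => x.1.2)) (fun x => g x.1) = mar P1 g := fun g =>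
    xat_fst (fun x : ((U × U) × U) × U => x.1.2) n1 m1 g
  have g2 : ∀ {α : Type} [Fintype α] (g : Ω × U → α) (k : α → U × U),
      (∀ x, ((b x.1).2, (a x.1).2) = k (g x)) → Cart.ent (xat P1
      (fun x => ((b x.1).2, (a x.1).2)) (W3 Q) (fun x => (x.1.1.1, x.2)) (fun x => x.1.2))
      (fun x => (g x.1, x.2)) = Cart.ent P1 g +
      (Cart.ent (W3 Q) (fun x => ((x.1.1.1, x.2), x.1.2)) -
        Cart.ent (W3 Q) (fun x => (x.1.1.1, x.2))) := fun g k hk =>
    xat_ent (fun x : ((U × U) × U) × U => x.1.2) n1 hW m1 g k hk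
  generalize xat P1 (fun x => ((b x.1).2, (a x.1).2)) (W3 Q) (fun x => (x.1.1.1, x.2))
      (fun x => x.1.2) = P2 at n2 t2 l2 s2 f2 g2 ⊢
  -- the entropies of the walk
  have w1 := W3_ent1 hE
  have w2 := W3_ent2 hE
  have w3 : Cart.ent (W3 Q) (fun x => (x.1.1.1, x.2)) = h3Q Q := rfl
  -- the laws of the two edges
  have lud : mar P2 (fun x => ((b x.1.1).2, x.1.2)) = Q :=
    (f2 (fun x => ((b x.1).2, x.2))).trans
      ((mar_map l1 (fun y => (y.1.1, y.2))).trans (W3_01 hE))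
  have lve : mar P2 (fun x => ((a x.1.1).2, x.2)) = Q :=
    (mar_map l2 (fun y => (y.1.2, y.2))).trans (W3_32 hE)
  have hud := ent_Q P2 _ lud
  have hve := ent_Q P2 _ lve
  have hd : Cart.ent P2 (fun x => x.1.2) = aQ Q := ent_Q_snd hE P2 _ lud
  have he : Cart.ent P2 (fun x => x.2) = aQ Q := ent_Q_snd hE P2 _ lve
  refine ⟨n2, t2, ?_, ?_, ?_, ?_, ?_, ?_, ?_, ?_, ?_⟩
  · exact (f2 (fun x => (R x.1, a x.1))).trans ((f1 (fun ω => (R ω, a ω))).trans h.la)
  · exact (f2 (fun x => (R x.1, b x.1))).trans ((f1 (fun ω => (R ω, b ω))).trans h.lb)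
  · intro x hx
    obtain ⟨w, hw, hw1, hw2⟩ := s1 x.1 (s2 x hx).1
    have h1 := (W3_ne hw).1
    rw [Prod.mk.injEq] at hw1
    have h2 : w.1.1 = ((b x.1.1).2, x.1.2) := Prod.ext hw1.1 hw2
    rw [h2] at h1
    exact h1
  · intro x hx
    obtain ⟨-, w, hw, hw1, hw2⟩ := s2 x hx
    have h1 := (W3_ne hw).2.2
    rw [Prod.mk.injEq] at hw1
    rw [hE.sym, hw1.2, hw2] at h1
    exact h1
  · exact (mar_map l2 (fun y => (y.1.1, y.2))).trans (W3_02 hE)
  · exact (f2 (fun x => (x.2, (a x.1).2))).trans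
      ((mar_map l1 (fun y => (y.2, y.1.2))).trans (W3_13 hE))
  · have k1 := g1 (fun ω => (R ω, a ω, b ω)) (fun y => (y.2.2.2, y.2.1.2)) (fun _ => rfl)
    have k2 := g2 (fun x => ((R x.1, a x.1, b x.1), x.2))
      (fun y => (y.1.2.2.2, y.1.2.1.2)) (fun _ => rfl)
    have k3 : Cart.ent P2 (fun x => (R x.1.1, a x.1.1, b x.1.1, x.1.2, x.2)) =
        Cart.ent P2 (fun x => (((R x.1.1, a x.1.1, b x.1.1), x.1.2), x.2)) :=
      ent_same _ fun x y => by
        simp only [Prod.mk.injEq]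
        tauto
    have k4 := h.ent
    rw [k3]
    linarith
  · have k1 := g1 (fun ω => ((b ω).2, (a ω).2, (b ω).1)) (fun y => (y.1, y.2.1)) (fun _ => rfl)
    have k2 := g2 (fun x => (((b x.1).2, (a x.1).2, (b x.1).1), x.2))
      (fun y => (y.1.1, y.1.2.1)) (fun _ => rfl)
    have k3 := subm n2 (A := fun x => (((b x.1.1).1, x.1.2, x.2), (b x.1.1).2))
      (B := fun x => ((a x.1.1).2, x.2))
      (C := fun x => ((((b x.1.1).2, (a x.1.1).2, (b x.1.1).1), x.1.2), x.2))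
      (D := fun x => x.2) (fun x y => by
        simp only [Prod.mk.injEq]
        tauto) (fun x y => by
        simp only [Prod.mk.injEq]
        tauto) (fun x y => by
        simp only [Prod.mk.injEq]
        tauto)
    have k4 := h.e1
    linarith
  · have k1 := g1 (fun ω => ((b ω).2, (a ω).2, (a ω).1)) (fun y => (y.1, y.2.1)) (fun _ => rfl)
    have k2 := g2 (fun x => (((b x.1).2, (a x.1).2, (a x.1).1), x.2))
      (fun y => (y.1.1, y.1.2.1)) (fun _ => rfl)
    have k3 := subm n2 (A := fun x => (((a x.1.1).1, x.2, x.1.2), (a x.1.1).2))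
      (B := fun x => ((b x.1.1).2, x.1.2))
      (C := fun x => ((((b x.1.1).2, (a x.1.1).2, (a x.1.1).1), x.1.2), x.2))
      (D := fun x => x.1.2) (fun x y => by
        simp only [Prod.mk.injEq]
        tauto) (fun x y => by
        simp only [Prod.mk.injEq]
        tauto) (fun x y => by
        simp only [Prod.mk.injEq]
        tauto)
    have k4 := h.e2
    linarith

end Vale.Agent.P050.H762
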